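import Vale.Agent.P370.Main

theorem Vale.Agent.Results.P370.QMAHard.result :
    ∀ c : ℕ, 0 < c → Vale.Agent.P370.QMAHard c :=
  fun c _ => Vale.Agent.P370.main_hard c
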